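import Vale.Agent.P281.H713.KD.Iface
import Vale.Agent.P281.H716.Met
import Vale.Agent.P281.H76.Red2
import Vale.Agent.P281.H76.Ext
import Vale.Agent.P285.H281.KN.Met

/-! P281, theorem KD, block ME: smooth metrics of the line bundles `O(D)` of the components of the
boundary. -/

open scoped Manifold ContDiff Topology ComplexOrder Matrix
open Set Filter Vale.Agent.P281 Vale.Agent.P272.K Vale.Agent.P299.H223
open Vale.Agent.P284.H248 Vale.Agent.P285.TM Vale.Agent.P285.H591.TM
open Vale.Agent.P281.H949.SA Vale.Agent.P281.H716 Vale.Agent.P281.H716.IsSys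
open Vale.Agent.P272.K.AMP (hess)

set_option linter.all false

noncomputable section

namespace Vale.Agent.P281.H342.KD

section lb

variable {n : ℕ} {X : Type} [TopologicalSpace X] [ChartedSpace (Cm n) X]
  [IsManifold 𝓘(ℂ, Cm n) ω X] {κ : Type} {eqn : κ → X → (X → ℂ) → Prop} {T : Finset κ}

/-- the line bundle `O(D)` -/
def OD (h : IsSys n eqn T) (D : κ) (hD : D ∈ T) : LineBundle n X where
  ι := X
  U := h.dom
  isOpen i := isOpen_interior
  cover x := ⟨x, h.self_mem_dom x⟩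
  g i j x := h.uu D i j x
  holo i j e x hx hi hj := holV_chart hx (h.uu_hol hD hi hj)
  ne_zero i j x hi hj := h.uu_ne hD hi hj
  cocycle i j l x hi hj hl := h.uu_cocycle hD hi hj hl

/-- the square of the norm of the canonical section of `O(D)` -/
def rr (h : IsSys n eqn T) (D : κ) (ψ : X → X → ℝ) (x : X) : ℝ :=
  ‖h.gg D x x‖ ^ 2 * Real.exp (-ψ x x)

variable {D : κ}

lemma rr_eq (h : IsSys n eqn T) (hD : D ∈ T) {ψ : X → X → ℝ} (hψ : Wt (OD h D hD) ψ) {i x : X}
    (hi : x ∈ h.dom i) : rr h D ψ x = ‖h.gg D i x‖ ^ 2 * Real.exp (-ψ i x) := by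
  have h1 : ψ x x = ψ i x + Real.log (‖h.uu D x i x‖ ^ 2) :=
    hψ.change x i x (h.self_mem_dom x) hi
  have h2 : h.gg D x x = h.uu D x i x * h.gg D i x := h.uu_mul hD (h.self_mem_dom x) hi
  have h3 : (0 : ℝ) < ‖h.uu D x i x‖ ^ 2 :=
    pow_pos (norm_pos_iff.2 (h.uu_ne hD (h.self_mem_dom x) hi)) 2
  have h4 : ‖h.uu D x i x‖ ≠ 0 := norm_ne_zero_iff.2 (h.uu_ne hD (h.self_mem_dom x) hi)
  unfold rr
  rw [h1, h2, norm_mul, mul_pow, neg_add, Real.exp_add, Real.exp_neg (Real.log _),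
    Real.exp_log h3]
  field_simp

lemma wt_continuousAt {L : LineBundle n X} {ψ : L.ι → X → ℝ} (hψ : Wt L ψ) {i : L.ι} {x : X}
    (hi : x ∈ L.U i) : ContinuousAt (ψ i) x := by
  have hc : At (chartAt (Cm n) x) x := ⟨chart_mem_atlas _ _, mem_chart_source _ _⟩
  set c : Chart n X := chartAt (Cm n) x with hcd
  have h1 : ContinuousAt (fun z => ψ i (c.symm z)) (c x) := (hψ.smooth i c x hc hi).continuousAt
  have h2 : ContinuousAt (fun y => ψ i (c.symm (c y))) x :=
    ContinuousAt.comp (g := fun z => ψ i (c.symm z)) h1 (c.continuousAt hc.2)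
  refine h2.congr ?_
  filter_upwards [c.open_source.mem_nhds hc.2] with y hy
  rw [c.left_inv hy]

lemma rr_continuous (h : IsSys n eqn T) (hD : D ∈ T) {ψ : X → X → ℝ}
    (hψ : Wt (OD h D hD) ψ) : Continuous (rr h D ψ) := by
  rw [continuous_iff_continuousAt]
  intro x
  have hx := h.self_mem_dom x
  have h1 : ContinuousAt (h.gg D x) x := (h.holV_gg hx hD).continuousAt
  have h2 : ContinuousAt (ψ x) x := wt_continuousAt (L := OD h D hD) hψ (i := x) hx
  have h3 : ContinuousAt (fun y => ‖h.gg D x y‖ ^ 2 * Real.exp (-ψ x y)) x :=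
    (h1.norm.pow 2).mul (Real.continuous_exp.continuousAt.comp h2.neg)
  refine h3.congr ?_
  filter_upwards [h.dom_ev hx] with y hy
  rw [rr_eq h hD hψ hy]

/-- `O(D)` has a smooth metric such that the canonical section has norm `≤ 1` -/
theorem exists_wt_le [T2Space X] [CompactSpace X] (h : IsSys n eqn T) (hD : D ∈ T) :
    ∃ ψ : X → X → ℝ, Wt (OD h D hD) ψ ∧ ∀ x, rr h D ψ x ≤ 1 := by
  obtain ⟨ψ, hψ⟩ := Vale.Agent.P285.H281.KN.exists_wt (OD h D hD)
  obtain ⟨C, hC⟩ := (isCompact_univ (X := X)).bddAbove_image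
    (rr_continuous h hD hψ).continuousOn
  have hC' : ∀ x, rr h D ψ x ≤ max C 1 := fun x =>
    (hC ⟨x, mem_univ x, rfl⟩).trans (le_max_left _ _)
  have hm : (0 : ℝ) < max C 1 := lt_max_of_lt_right one_pos
  refine ⟨fun i x => ψ i x + Real.log (max C 1), ⟨fun i e x he hi => ?_, fun i j x hi hj => ?_⟩,
    fun x => ?_⟩
  · exact (hψ.smooth i e x he hi).add contDiffAt_const
  · show ψ i x + _ = ψ j x + _ + _
    rw [hψ.change i j x hi hj]
    ring
  · show ‖h.gg D x x‖ ^ 2 * Real.exp (-(ψ x x + Real.log (max C 1))) ≤ 1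
    rw [neg_add, Real.exp_add, Real.exp_neg (Real.log _), Real.exp_log hm, ← mul_assoc,
      ← div_eq_mul_inv, div_le_one hm]
    exact hC' x

end lb

section eqn

variable {n : ℕ} {X : Type} [TopologicalSpace X] [ChartedSpace (Cm n) X]

/-- the local equations of the closed sets `D` -/
abbrev eqD (n : ℕ) {X : Type} [TopologicalSpace X] [ChartedSpace (Cm n) X] (D : Set X) (z : X)
    (g : X → ℂ) : Prop := J.IsLocalEq (Cm n) D g z

lemma mem_iff {D : Set X} {g : X → ℂ} {x : X} (h : J.IsLocalEq (Cm n) D g x) :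
    x ∈ D ↔ g x = 0 := by
  obtain ⟨V, -, hx, -, h2, -⟩ := h
  exact h2 x hx

variable [IsManifold 𝓘(ℂ, Cm n) ω X]

theorem isSys_eqD {T : Finset (Set X)} (hT : ∀ D ∈ T, ∀ x, ∃ g, J.IsLocalEq (Cm n) D g x) :
    IsSys n (eqD n) T where
  ex D hD x := hT D hD x
  hol D x g hg := IsLocalEq.holAt (E := Cm n) (D := D) hg
  per D x g hg := IsLocalEq.eventually (E := Cm n) (D := D) hg
  unit D x g g' hg hg' := H76.unit_ratio_red (E := Cm n) (D := D) hg hg'
  nz D hD x g hg := H76.frequently_ne (E := Cm n) (D := D) hg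

lemma off_eqD {T : Finset (Set X)} (hT : ∀ D ∈ T, ∀ x, ∃ g, J.IsLocalEq (Cm n) D g x) {x : X} :
    x ∈ off (eqD n) T ↔ ∀ D ∈ T, x ∉ D := by
  constructor
  · intro hx D hD hxD
    obtain ⟨g, hg⟩ := hT D hD x
    exact hx D hD g hg ((mem_iff hg).1 hxD)
  · intro hx D hD g hg h0
    exact hx D hD ((mem_iff hg).2 h0)

/-- the local data of the boundary -/
theorem isBd {T : Finset (Set X)} (h : IsSys n (eqD n) T) {M : ℕ} {Dv : Fin M → Set X}
    (hinj : Function.Injective Dv) (hDv : ∀ i, Dv i ∈ T) {ψ : Fin M → X → X → ℝ}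
    (hψ : ∀ i, Wt (OD h (Dv i) (hDv i)) (ψ i)) (hle : ∀ i x, rr h (Dv i) (ψ i) x ≤ 1)
    (hsnc : ∀ (x : X) (g : Set X → X → ℂ), (∀ D ∈ T, x ∈ D → J.IsLocalEq (Cm n) D (g D) x) →
      Function.Surjective fun (ξ : Cm n) (D : {D // D ∈ T ∧ x ∈ D}) => J.dif (Cm n) (g D) x ξ) :
    H713.KD.IsBd Dv (fun i => rr h (Dv i) (ψ i)) (fun i => cv (OD h (Dv i) (hDv i)) (ψ i)) where
  le_one := hle
  closed i := isClosedForm_cv (hψ i)
  loc e x he := by
    have hx := h.self_mem_dom x
    have hcd : ∀ i, ContDiffAt ℂ ω (fun z => h.gg (Dv i) x (e.symm z)) (e x) := fun i =>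
      holV_chart he (h.holV_gg hx (hDv i))
    refine ⟨fun i z => h.gg (Dv i) x (e.symm z), fun i z => ψ i x (e.symm z),
      fun i => (hcd i).analyticAt, fun i => (hψ i).smooth x e x he hx, fun i => ?_, ?_, ?_⟩
    · refine IsLocalEq.congr (E := Cm n) (D := Dv i) (h.gg_spec (hDv i) x) ?_
      filter_upwards [e.open_source.mem_nhds he.2] with y hy
      rw [e.left_inv hy]
    · rw [linearIndependent_iff']
      intro s c hc i₀ hi₀
      have hs := hsnc x (fun D => h.gg D x) (fun D hD _ => h.gg_spec hD x)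
      have hmem : ∀ i : {i // h.gg (Dv i) x (e.symm (e x)) = 0}, Dv i.1 ∈ T ∧ x ∈ Dv i.1 := by
        intro i
        exact ⟨hDv i.1, (mem_iff (h.gg_spec (hDv i.1) x)).2
          ((congrArg (h.gg (Dv i.1) x) he.left_inv).symm.trans i.2)⟩
      obtain ⟨ξ, hξ⟩ := hs (fun D => if D.1 = Dv i₀.1 then 1 else 0)
      have hchain : ∀ i : {i // h.gg (Dv i) x (e.symm (e x)) = 0},
          J.dif (Cm n) (h.gg (Dv i.1) x) x ξ =
            fderiv ℂ (fun z => h.gg (Dv i.1) x (e.symm z)) (e x) (dV (Cm n) e x ξ) := by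
        intro i
        have hev : (fun y => h.gg (Dv i.1) x (e.symm (e y))) =ᶠ[𝓝 x] h.gg (Dv i.1) x := by
          filter_upwards [e.open_source.mem_nhds he.2] with y hy
          rw [e.left_inv hy]
        have h3 : HolV (Cm n) (e : X → Cm n) x := chart_contMDiffAt he
        have h4 := dV_comp_contDiff (E := Cm n) (G := fun z => h.gg (Dv i.1) x (e.symm z))
          (v := (e : X → Cm n)) (hcd i.1) h3
        have h5 : J.dif (Cm n) (h.gg (Dv i.1) x) x =
            dV (Cm n) (fun y => h.gg (Dv i.1) x (e.symm (e y))) x := by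
          unfold J.dif dV
          exact (hev.mfderiv_eq).symm
        rw [h5, h4]
        rfl
      have h6 : ∀ i : {i // h.gg (Dv i) x (e.symm (e x)) = 0},
          J.dif (Cm n) (h.gg (Dv i.1) x) x ξ = if i = i₀ then 1 else 0 := by
        intro i
        have h7 := congrFun hξ ⟨Dv i.1, hmem i⟩
        simp only at h7
        rw [h7]
        by_cases hii : i = i₀
        · rw [if_pos hii, if_pos (by rw [hii])]
        · rw [if_neg hii, if_neg fun h8 => hii (Subtype.ext (hinj h8))]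
      have h8 := congrArg (fun A : Cm n →L[ℂ] ℂ => A (dV (Cm n) e x ξ)) hc
      simp only [ContinuousLinearMap.sum_apply, ContinuousLinearMap.smul_apply,
        ContinuousLinearMap.zero_apply, smul_eq_mul] at h8
      rw [Finset.sum_congr rfl fun i _ => by rw [← hchain i, h6 i]] at h8
      simpa [hi₀] using h8
    · filter_upwards [mem_U_nhds (L := h.OL 0) he (i := x) hx, he.nhds_target] with z h1 h2 i
      have h3 := At.of_target he.1 h2
      refine ⟨rr_eq h (hDv i) (hψ i) h1, ?_⟩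
      have h4 := cv_eq (hψ i) h3 (i := x) h1
      rw [e.right_inv h2] at h4
      exact h4

end eqn

end Vale.Agent.P281.H342.KD
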