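import Vale.Agent.P281.H342.KD.ME1

/-! P281, theorem KD, block ME: the metric of `K_X` defined by sections generating `m (K_X + Δ)` and
metrics of the components of `Δ`. -/

open scoped Manifold ContDiff Topology ComplexOrder Matrix
open Set Filter Vale.Agent.P281 Vale.Agent.P272.K Vale.Agent.P299.H223
open Vale.Agent.P284.H248 Vale.Agent.P285.TM Vale.Agent.P285.H591.TM
open Vale.Agent.P281.H949.SA Vale.Agent.P281.H716 Vale.Agent.P281.H716.IsSys
open Vale.Agent.P272.K.AMP (hess)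

set_option linter.all false

noncomputable section

namespace Vale.Agent.P281.H342.KD

section phi

variable {n : ℕ} {X : Type} [TopologicalSpace X] [ChartedSpace (Cm n) X]
  [IsManifold 𝓘(ℂ, Cm n) ω X] {κ : Type} {eqn : κ → X → (X → ℂ) → Prop} {T : Finset κ}
  {M N : ℕ} {Dv : Fin M → κ} {ψ : Fin M → X → X → ℝ} {k : κ → ℕ} {m : ℕ} {s : Fin N → X → ℂ}
  {e e' : Chart n X} {x : X}

/-- the metric of `K_X` -/
def phi (h : IsSys n eqn T) (Dv : Fin M → κ) (ψ : Fin M → X → X → ℝ) (k : κ → ℕ) (m : ℕ)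
    (s : Fin N → X → ℂ) (e : Chart n X) (z : Cm n) : ℝ :=
  (m : ℝ)⁻¹ * (Real.log (nsq (h.Fr k m s (e.symm z) e z)) +
    ∑ i, (-(k (Dv i) : ℝ)) * ψ i (e.symm z) (e.symm z))

lemma phi_eq (h : IsSys n eqn T) (hr : Gen n eqn T k m s)
    (hprod : ∀ f : κ → ℂ, ∏ i, f (Dv i) = ∏ D ∈ T, f D) (hDv : ∀ i, Dv i ∈ T)
    (hψ : ∀ i, Wt (OD h (Dv i) (hDv i)) (ψ i)) {p : X} (hp : x ∈ h.dom p) (he : At e x) :
    phi h Dv ψ k m s e (e x) = (m : ℝ)⁻¹ * (Real.log (nsq (h.Fr k m s p e (e x))) +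
      ∑ i, (-(k (Dv i) : ℝ)) * ψ i p x) := by
  have hx := h.self_mem_dom x
  unfold phi
  rw [he.left_inv]
  congr 1
  have h1 : (h.OL k).g x p x = ∏ i, h.uu (Dv i) x p x ^ k (Dv i) :=
    (hprod fun D => h.uu D x p x ^ k D).symm
  have h2 : ∀ i, (0 : ℝ) < ‖h.uu (Dv i) x p x‖ := fun i => norm_pos_iff.2 (h.uu_ne (hDv i) hx hp)
  have h3 : (0 : ℝ) < ‖(h.OL k).g x p x‖ ^ 2 :=
    pow_pos (norm_pos_iff.2 ((h.OL k).ne_zero x p x hx hp)) 2
  have h4 : Real.log (‖(h.OL k).g x p x‖ ^ 2) =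
      ∑ i, (k (Dv i) : ℝ) * Real.log (‖h.uu (Dv i) x p x‖ ^ 2) := by
    rw [h1, norm_prod, ← Finset.prod_pow, Real.log_prod fun i _ => ?_]
    · refine Finset.sum_congr rfl fun i _ => ?_
      rw [norm_pow, ← pow_mul, mul_comm, pow_mul, Real.log_pow]
    · rw [norm_pow]
      exact (pow_pos (pow_pos (h2 i) _) 2).ne'
  rw [h.Fr_glue hr hx hp he, nsq_smul, Real.log_mul h3.ne' (nsq_pos (h.Fr_ne hr hp he)).ne', h4]
  have h5 : ∀ i, ψ i x x = ψ i p x + Real.log (‖h.uu (Dv i) x p x‖ ^ 2) := fun i =>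
    (hψ i).change x p x hx hp
  have h6 : ∑ i, (-(k (Dv i) : ℝ)) * ψ i x x = ∑ i, (-(k (Dv i) : ℝ)) * ψ i p x -
      ∑ i, (k (Dv i) : ℝ) * Real.log (‖h.uu (Dv i) x p x‖ ^ 2) := by
    rw [← Finset.sum_sub_distrib]
    refine Finset.sum_congr rfl fun i _ => ?_
    rw [h5]
    ring
  rw [h6]
  ring

lemma phi_ev (h : IsSys n eqn T) (hr : Gen n eqn T k m s)
    (hprod : ∀ f : κ → ℂ, ∏ i, f (Dv i) = ∏ D ∈ T, f D) (hDv : ∀ i, Dv i ∈ T)
    (hψ : ∀ i, Wt (OD h (Dv i) (hDv i)) (ψ i)) (he : At e x) :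
    phi h Dv ψ k m s e =ᶠ[𝓝 (e x)] fun z => (m : ℝ)⁻¹ * (Real.log (nsq (h.Fr k m s x e z)) +
      ∑ i, (-(k (Dv i) : ℝ)) * ψ i x (e.symm z)) := by
  filter_upwards [mem_U_nhds (L := h.OL k) he (i := x) (h.self_mem_dom x), he.nhds_target]
    with z h1 h2
  have h3 := At.of_target he.1 h2
  have h4 := phi_eq h hr hprod hDv hψ (p := x) h1 h3
  rwa [e.right_inv h2] at h4

theorem phi_canonical (h : IsSys n eqn T) (hm : 0 < m) (hr : Gen n eqn T k m s)
    (hprod : ∀ f : κ → ℂ, ∏ i, f (Dv i) = ∏ D ∈ T, f D) (hDv : ∀ i, Dv i ∈ T)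
    (hψ : ∀ i, Wt (OD h (Dv i) (hDv i)) (ψ i)) : IsCanonicalMetric (phi h Dv ψ k m s) where
  smooth e x he := by
    have hx := h.self_mem_dom x
    refine ContDiffAt.congr_of_eventuallyEq ?_ (phi_ev h hr hprod hDv hψ he)
    refine contDiffAt_const.mul ((smooth_log_nsq (h.Fr_hol hr hx he) (h.Fr_ne hr hx he)).add ?_)
    exact ContDiffAt.sum fun i _ => contDiffAt_const.mul ((hψ i).smooth x e x he hx)
  change e e' x he he' := by
    have hx := h.self_mem_dom x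
    have h1 : (0 : ℝ) < ‖(jacM e e' x).det‖ ^ 2 :=
      pow_pos (norm_pos_iff.2 (jacM_det_ne_zero he he')) 2
    have hm' : (m : ℝ) ≠ 0 := by exact_mod_cast hm.ne'
    rw [phi_eq h hr hprod hDv hψ hx he, phi_eq h hr hprod hDv hψ hx he',
      h.Fr_change hr hx he he', nsq_smul, norm_pow, ← pow_mul, mul_comm m 2, pow_mul,
      Real.log_mul (pow_pos h1 m).ne' (nsq_pos (h.Fr_ne hr hx he')).ne', Real.log_pow]
    field_simp
    ring

omit [TopologicalSpace X] [ChartedSpace (Cm n) X] [IsManifold 𝓘(ℂ, Cm n) ω X] in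
lemma cHess_fsum {M : ℕ} (c : Fin M → ℝ) {f : Fin M → Cm n → ℝ} {z : Cm n}
    (hf : ∀ i, ContDiffAt ℝ 2 (f i) z) (s : Finset (Fin M)) :
    cHess (fun y => ∑ i ∈ s, c i * f i y) z = ∑ i ∈ s, (c i : ℂ) • cHess (f i) z := by
  classical
  induction s using Finset.induction_on with
  | empty =>
    have h1 : (fun y : Cm n => ∑ i ∈ (∅ : Finset (Fin M)), c i * f i y) =
        fun y => (0 : ℝ) * (fun _ => (0 : ℝ)) y := by
      funext y; simp
    rw [h1, cHess_const_mul 0 contDiffAt_const]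
    simp
  | insert a s ha ih =>
    simp only [Finset.sum_insert ha]
    rw [cHess_add (contDiffAt_const.mul (hf a))
      (ContDiffAt.sum fun b _ => contDiffAt_const.mul (hf b)), ih, cHess_const_mul _ (hf a)]

lemma cHess_phi (h : IsSys n eqn T) (hr : Gen n eqn T k m s)
    (hprod : ∀ f : κ → ℂ, ∏ i, f (Dv i) = ∏ D ∈ T, f D) (hDv : ∀ i, Dv i ∈ T)
    (hψ : ∀ i, Wt (OD h (Dv i) (hDv i)) (ψ i)) (he : At e x) :
    cHess (phi h Dv ψ k m s e) (e x) = (((m : ℝ)⁻¹ : ℝ) : ℂ) • (fsM (h.Fr k m s x e) (e x) +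
      ∑ i, ((-(k (Dv i) : ℝ) : ℝ) : ℂ) • hess (ψ i x) e (e x)) := by
  have hx := h.self_mem_dom x
  have h1 : ContDiffAt ℝ 2 (fun z => Real.log (nsq (h.Fr k m s x e z))) (e x) :=
    (smooth_log_nsq (h.Fr_hol hr hx he) (h.Fr_ne hr hx he)).of_le two_le_infty
  have h2 : ∀ i, ContDiffAt ℝ 2 (fun z => ψ i x (e.symm z)) (e x) := fun i =>
    ((hψ i).smooth x e x he hx).of_le two_le_infty
  have h3 : ContDiffAt ℝ 2 (fun z => ∑ i, (-(k (Dv i) : ℝ)) * ψ i x (e.symm z)) (e x) :=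
    ContDiffAt.sum fun i _ => contDiffAt_const.mul (h2 i)
  rw [cHess_congr (phi_ev h hr hprod hDv hψ he), cHess_const_mul _ (h1.add h3),
    cHess_add h1 h3, cHess_fsum (fun i => -(k (Dv i) : ℝ)) h2 Finset.univ]
  rfl

/-- the class of `K_X + Δ` -/
lemma cls_eq (h : IsSys n eqn T) (hm : 0 < m) (hr : Gen n eqn T k m s)
    (hprod : ∀ f : κ → ℂ, ∏ i, f (Dv i) = ∏ D ∈ T, f D) (hDv : ∀ i, Dv i ∈ T)
    (hψ : ∀ i, Wt (OD h (Dv i) (hDv i)) (ψ i)) {Δ : κ → ℝ} (hk : ∀ D, (k D : ℝ) = m * Δ D)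
    (he : At e x) :
    H713.KD.clsK (phi h Dv ψ k m s) (fun i => Δ (Dv i))
      (fun i => cv (OD h (Dv i) (hDv i)) (ψ i)) e (e x) =
      (((m : ℝ)⁻¹ : ℝ) : ℂ) • fsM (h.Fr k m s x e) (e x) := by
  have hx := h.self_mem_dom x
  have hm' : (m : ℝ) ≠ 0 := by exact_mod_cast hm.ne'
  unfold H713.KD.clsK
  show cHess (phi h Dv ψ k m s e) (e x) +
    ∑ i, ((Δ (Dv i) : ℝ) : ℂ) • cv (OD h (Dv i) (hDv i)) (ψ i) e (e x) = _
  rw [cHess_phi h hr hprod hDv hψ he, smul_add, add_assoc, add_eq_left, Finset.smul_sum,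
    ← Finset.sum_add_distrib]
  refine Finset.sum_eq_zero fun i _ => ?_
  rw [cv_eq (hψ i) he (i := x) hx, smul_smul, ← add_smul, hk]
  have h1 : (((m : ℝ)⁻¹ : ℝ) : ℂ) * ((-((m : ℝ) * Δ (Dv i)) : ℝ) : ℂ) + ((Δ (Dv i) : ℝ) : ℂ) = 0 := by
    rw [← Complex.ofReal_mul, ← Complex.ofReal_add]
    have : (m : ℝ)⁻¹ * (-((m : ℝ) * Δ (Dv i))) + Δ (Dv i) = 0 := by
      field_simp
      ring
    rw [this, Complex.ofReal_zero]
  rw [h1, zero_smul]

end phi

section main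

variable {n : ℕ} {X : Type} [TopologicalSpace X] [ChartedSpace (Cm n) X]
  [IsManifold 𝓘(ℂ, Cm n) ω X]

omit [IsManifold 𝓘(ℂ, Cm n) ω X] in
lemma smul_ker {c : ℂ} (hc : c ≠ 0) (A : Matrix (Fin n) (Fin n) ℂ) (v : Cm n) :
    (∀ j, ∑ i, v i * (c • A) i j = 0) ↔ ∀ j, ∑ i, v i * A i j = 0 := by
  refine forall_congr' fun j => ?_
  have h2 : ∑ i, v i * (c • A) i j = c * ∑ i, v i * A i j := by
    rw [Finset.mul_sum]
    refine Finset.sum_congr rfl fun i _ => ?_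
    rw [Matrix.smul_apply, smul_eq_mul]
    ring
  rw [h2, mul_eq_zero, or_iff_right hc]

/-- the determinant of the differential of the preferred chart -/
lemma dj_self (x : X) : dj (chartAt (Cm n) x) x = 1 := by
  have h1 : De (chartAt (Cm n) x) x = ContinuousLinearMap.id ℂ (Cm n) := by
    refine ContinuousLinearMap.ext fun v => ?_
    have h2 := mfderiv_chartAt_eq_tangentCoordChange (I := 𝓘(ℂ, Cm n)) (M := X)
      (mem_chart_source (Cm n) x)
    have h3 := tangentCoordChange_self (I := 𝓘(ℂ, Cm n)) (M := X) (x := x) (z := x) (v := v)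
      (mem_extChartAt_source x)
    show mfderiv 𝓘(ℂ, Cm n) 𝓘(ℂ, Cm n) (chartAt (Cm n) x) x v = v
    rw [h2]
    exact h3
  unfold dj
  rw [h1]
  exact LinearMap.det_id

theorem metPartK : H713.KD.MetPartK := by
  intro n X _ _ _ _ _ _ χ hχ Δ hΔ m N hm k hk s hs hgen
  classical
  obtain ⟨hfin, hprime, hrat, hsnc⟩ := hΔ
  obtain ⟨T, hT⟩ : ∃ T : Finset (Set X), ∀ D, D ∈ T ↔ Δ D ≠ 0 :=
    ⟨hfin.toFinset, fun D => by rw [Set.Finite.mem_toFinset]; rfl⟩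
  have hex : ∀ D ∈ T, ∀ x, ∃ g, J.IsLocalEq (Cm n) D g x := fun D hD =>
    (hprime D ((hT D).1 hD)).2.1
  have h : IsSys n (eqD n) T := isSys_eqD hex
  obtain ⟨Dv, hDv, hinj, hDv', hprod⟩ : ∃ Dv : Fin T.card → Set X, (∀ i, Dv i ∈ T) ∧
      Function.Injective Dv ∧ (∀ D ∈ T, ∃ i, Dv i = D) ∧
      ∀ f : Set X → ℂ, ∏ i, f (Dv i) = ∏ D ∈ T, f D := by
    refine ⟨fun i => (T.equivFin.symm i : Set X), fun i => (T.equivFin.symm i).2,
      fun i j hij => T.equivFin.symm.injective (Subtype.ext hij),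
      fun D hD => ⟨T.equivFin ⟨D, hD⟩, by
        show ((T.equivFin.symm (T.equivFin ⟨D, hD⟩) : T) : Set X) = D
        rw [Equiv.symm_apply_apply]⟩, fun f => ?_⟩
    rw [← Finset.prod_coe_sort T f]
    exact Equiv.prod_comp T.equivFin.symm (fun D : T => f D)
  have hm' : (m : ℝ) ≠ 0 := by exact_mod_cast hm.ne'
  have hkT : ∀ D, k D ≠ 0 → D ∈ T := by
    intro D hD
    refine (hT D).2 fun h0 => hD ?_
    have h1 := hk D
    rw [h0, mul_zero] at h1
    exact_mod_cast h1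
  have hr : Gen n (eqD n) T k m s := ⟨hkT, hs, hgen⟩
  have hoff : ∀ x, (∀ i, x ∉ Dv i) → x ∈ off (eqD n) T := by
    intro x hx
    refine (off_eqD hex).2 fun D hD hxD => ?_
    obtain ⟨i, hi⟩ := hDv' D hD
    exact hx i (hi ▸ hxD)
  choose ψ hψ hle using fun i => exists_wt_le h (hDv i)
  refine ⟨T.card, Dv, fun i => rr h (Dv i) (ψ i), fun i => cv (OD h (Dv i) (hDv i)) (ψ i),
    phi h Dv ψ k m s, hinj, ?_, ?_, phi_canonical h hm hr hprod hDv hψ, ?_, ?_, ?_⟩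
  · intro D
    constructor
    · exact fun hD => hDv' D ((hT D).2 hD)
    · rintro ⟨i, rfl⟩
      exact (hT _).1 (hDv i)
  · refine isBd h hinj hDv hψ hle ?_
    intro x g hg c
    obtain ⟨ξ, hξ⟩ := hsnc x g (fun D hD hx => hg D ((hT D).2 hD) hx)
      (fun D => c ⟨D.1, (hT D.1).2 D.2.1, D.2.2⟩)
    exact ⟨ξ, funext fun D => congrFun hξ ⟨D.1, (hT D.1).1 D.2.1, D.2.2⟩⟩
  · intro e x he
    have hx := h.self_mem_dom x
    rw [cls_eq h hm hr hprod hDv hψ hk he]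
    exact (fsM_psd (h.Fr_hol hr hx he) (h.Fr_ne hr hx he)).smul
      (by exact_mod_cast inv_nonneg.2 (Nat.cast_nonneg m))
  · intro e x he hxD b₀ hb₀ v
    have hx := h.self_mem_dom x
    have hxo := hoff x hxD
    have hF := h.Fr_hol hr hx he
    have hF0 := h.Fr_ne hr hx he
    have hc : ((((m : ℝ)⁻¹ : ℝ) : ℂ)) ≠ 0 := by exact_mod_cast inv_ne_zero hm'
    have hb0 : h.Fr k m s x e (e x) b₀ ≠ 0 := by
      simp only [Fr, he.left_inv]
      rw [h.cR_eq hr.supp (hr.sec b₀) hx he hxo]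
      exact div_ne_zero (mul_ne_zero hb₀ (h.GG_ne hx hxo k)) (pow_ne_zero _ (dj_ne_zero he))
    rw [cls_eq h hm hr hprod hDv hψ hk he, smul_ker hc, fsM_ker hF hF0, fderiv_quot hF hb0]
    refine forall_congr' fun b => ?_
    have h3 : (fun y => h.Fr k m s x e y b / h.Fr k m s x e y b₀) =ᶠ[𝓝 (e x)]
        fun z => s b (e.symm z) / s b₀ (e.symm z) := by
      have h5 : Tendsto e.symm (𝓝 (e x)) (𝓝 x) := by
        have := e.continuousAt_symm he.mem_target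
        rwa [ContinuousAt, he.left_inv] at this
      filter_upwards [he.nhds_target, h5.eventually (h.dom_ev hx),
        h5.eventually (h.isOpen_off.mem_nhds hxo)] with z h6 h7 h8
      have h9 := At.of_target he.1 h6
      simp only [Fr]
      rw [h.cR_eq hr.supp (hr.sec b) h7 h9 h8, h.cR_eq hr.supp (hr.sec b₀) h7 h9 h8,
        div_div_div_cancel_right₀ (pow_ne_zero _ (dj_ne_zero h9)),
        mul_div_mul_right _ _ (h.GG_ne h7 h8 k)]
    rw [h3.fderiv_eq]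
  · intro x hxD
    have hx := h.self_mem_dom x
    have hxo := hoff x hxD
    have hc : At (chartAt (Cm n) x) x := ⟨chart_mem_atlas _ _, mem_chart_source _ _⟩
    have h1 := phi_eq h hr hprod hDv hψ hx hc
    have h2 : nsq (h.Fr k m s x (chartAt (Cm n) x) (chartAt (Cm n) x x)) =
        (∑ b, ‖s b x‖ ^ 2) * ∏ i, (‖h.gg (Dv i) x x‖ ^ 2) ^ k (Dv i) := by
      have h3 : ‖h.GG k x x‖ ^ 2 = ∏ i, (‖h.gg (Dv i) x x‖ ^ 2) ^ k (Dv i) := by
        have h4 : h.GG k x x = ∏ i, h.gg (Dv i) x x ^ k (Dv i) :=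
          (hprod fun D => h.gg D x x ^ k D).symm
        rw [h4, norm_prod, ← Finset.prod_pow]
        refine Finset.prod_congr rfl fun i _ => ?_
        rw [norm_pow, ← pow_mul, ← pow_mul, mul_comm]
      rw [← h3, Finset.sum_mul]
      unfold nsq
      refine Finset.sum_congr rfl fun b _ => ?_
      simp only [Fr, hc.left_inv]
      rw [h.cR_eq hr.supp (hr.sec b) hx hc hxo, dj_self, one_pow, div_one, norm_mul, mul_pow]
    have h5 : (0 : ℝ) < nsq (h.Fr k m s x (chartAt (Cm n) x) (chartAt (Cm n) x x)) :=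
      nsq_pos (h.Fr_ne hr hx hc)
    rw [h1, ← mul_assoc, mul_inv_cancel₀ hm', one_mul, Real.exp_add, Real.exp_log h5, h2,
      Real.exp_sum, mul_assoc, ← Finset.prod_mul_distrib]
    congr 1
    refine Finset.prod_congr rfl fun i _ => ?_
    unfold rr
    rw [mul_pow, ← Real.exp_nat_mul]
    congr 2
    ring

end main

end Vale.Agent.P281.H342.KD
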